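import Vale.Agent.P283.A647.H170.Poly
import Vale.Agent.P283.Z647.Lc

/-!
Divisorial valuations with given weights in a chart whose units are arbitrary polynomials.
-/

set_option linter.all false

namespace Vale.Agent.P283.A647.H279

open MvPolynomial Finset
open Vale.Agent.P283.H647 (ResForm HypData DiagData)
open Vale.Agent.P283.Z647 (wtZ IsMinZ RegZ inFormZ psi_valZ)
open Vale.Agent.P283.A647.H170

section Eqn

variable {d : ℕ}

theorem mem_pF {q : MvPolynomial (Fin d) ℂ} {α : Fin (d + 1) →₀ ℕ} (h : α ∈ (pF q).support) :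
    α = 0 ∨ (α 0 = 1 ∧ ∃ u ∈ q.support, ∀ j, α (Fin.succ j) = u j) := by
  classical
  by_cases h0 : α = 0
  · exact Or.inl h0
  right
  have h1 : α ∈ (X 0 * rename Fin.succ q : MvPolynomial (Fin (d + 1)) ℂ).support := by
    rw [mem_support_iff]
    intro h2
    rw [mem_support_iff] at h
    apply h
    have h3 : pF q = X 0 * rename Fin.succ q - 1 := rfl
    rw [h3, coeff_sub, h2, coeff_one, if_neg (Ne.symm h0), sub_zero]
  rw [support_X_mul, Finset.mem_map] at h1
  obtain ⟨β, hβ, rfl⟩ := h1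
  rw [support_rename_of_injective (Fin.succ_injective d), Finset.mem_image] at hβ
  obtain ⟨u, hu, rfl⟩ := hβ
  constructor
  · have h4 : (Finsupp.mapDomain Fin.succ u) (0 : Fin (d + 1)) = 0 := by
      refine Finsupp.mapDomain_notin_range _ _ ?_
      rintro ⟨j, hj⟩
      exact Fin.succ_ne_zero j hj
    simp [h4]
  · refine ⟨u, hu, fun j => ?_⟩
    have h5 : (Finsupp.mapDomain Fin.succ u) (Fin.succ j) = u j :=
      Finsupp.mapDomain_apply (Fin.succ_injective d) u j
    have h6 : (Finsupp.single (0 : Fin (d + 1)) 1 : Fin (d + 1) →₀ ℕ) (Fin.succ j) = 0 :=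
      Finsupp.single_eq_of_ne (Fin.succ_ne_zero j)
    simp [h5, h6]

theorem coeff_zero_pF (q : MvPolynomial (Fin d) ℂ) : coeff 0 (pF q) = -1 := by
  classical
  have h3 : pF q = X 0 * rename Fin.succ q - 1 := rfl
  rw [h3, coeff_sub, coeff_X_mul', if_neg (by simp), coeff_one, if_pos rfl]
  ring

theorem coeff_one_pF (q : MvPolynomial (Fin d) ℂ) :
    coeff (Finsupp.single 0 1) (pF q) = coeff 0 q := by
  classical
  have h3 : pF q = X 0 * rename Fin.succ q - 1 := rfl
  have h4 : (0 : Fin (d + 1) →₀ ℕ) ≠ Finsupp.single 0 1 := by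
    intro h
    have h1 := DFunLike.congr_fun h 0
    simp at h1
  have h5 : coeff 0 (rename Fin.succ q) = coeff 0 q := by
    rw [← constantCoeff_eq, ← constantCoeff_eq, constantCoeff_rename]
  rw [h3, coeff_sub, coeff_X_mul', if_pos (by simp), coeff_one, if_neg h4, tsub_self, h5, sub_zero]

theorem isMin_pF {q : MvPolynomial (Fin d) ℂ} (ω : Fin d → ℤ)
    (hq : ∀ β ∈ q.support, 0 ≤ ∑ j, ω j * (β j : ℤ)) :
    IsMinZ (pF q) (Fin.cons 0 ω) 0 := by
  constructor
  · refine ⟨0, ?_, by simp [wtZ]⟩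
    rw [mem_support_iff, coeff_zero_pF]
    norm_num
  · intro β hβ
    unfold wtZ
    rw [Fin.sum_univ_succ]
    simp only [Fin.cons_zero, Fin.cons_succ, zero_mul, zero_add]
    rcases mem_pF hβ with rfl | ⟨-, u, hu, h1⟩
    · simp
    · refine le_trans (hq u hu) (le_of_eq ?_)
      exact Finset.sum_congr rfl fun j _ => by rw [h1 j]

theorem reg_pF {q : MvPolynomial (Fin d) ℂ} (a : Fin (d + 1) → ℤ)
    (ha : IsMinZ (pF q) a 0) : RegZ (pF q) a := by
  classical
  intro ξ hξ h0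
  refine ⟨0, ?_⟩
  have h1 : X 0 * pderiv 0 (inFormZ (pF q) a) = inFormZ (pF q) a + 1 := by
    unfold inFormZ
    have hmem : (0 : Fin (d + 1) →₀ ℕ) ∈ (pF q).support.filter
        (fun α => ∀ β ∈ (pF q).support, wtZ a α ≤ wtZ a β) := by
      rw [Finset.mem_filter, mem_support_iff, coeff_zero_pF]
      refine ⟨by norm_num, fun β hβ => ?_⟩
      have := ha.2 β hβ
      simpa [wtZ] using this
    rw [← Finset.sum_erase_add _ _ hmem, map_add, mul_add, map_sum, Finset.mul_sum,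
      coeff_zero_pF]
    have h2 : X 0 * pderiv 0 (monomial (0 : Fin (d + 1) →₀ ℕ) (-1 : ℂ)) = 0 := by
      rw [pderiv_monomial]; simp
    have h3 : monomial (0 : Fin (d + 1) →₀ ℕ) (-1 : ℂ) = -1 := by
      simp
    rw [h2, h3]
    have h4 : ∀ α ∈ ((pF q).support.filter
        (fun α => ∀ β ∈ (pF q).support, wtZ a α ≤ wtZ a β)).erase 0,
        X 0 * pderiv 0 (monomial α (coeff α (pF q))) =
          monomial α (coeff α (pF q)) := by
      intro α hα
      rw [Finset.mem_erase, Finset.mem_filter] at hα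
      rcases mem_pF hα.2.1 with h | ⟨h5, -⟩
      · exact absurd h hα.1
      · rw [X_mul_pderiv_monomial, h5, one_smul]
    rw [Finset.sum_congr rfl h4]
    ring
  have h2 := congrArg (eval ξ) h1
  rw [map_mul, map_add, h0, eval_X, map_one, zero_add] at h2
  intro h3
  rw [h3, mul_zero] at h2
  exact zero_ne_one h2

/-- A product of polynomials without terms of negative weight has no terms of negative weight. -/
theorem wt_prod {U : Type} [Fintype U] {q : U → MvPolynomial (Fin d) ℂ} {ω : Fin d → ℤ}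
    (hq : ∀ i, ∀ β ∈ (q i).support, 0 ≤ ∑ j, ω j * (β j : ℤ)) :
    ∀ β ∈ (∏ i, q i).support, 0 ≤ ∑ j, ω j * (β j : ℤ) := by
  classical
  refine Finset.prod_induction q
    (fun p : MvPolynomial (Fin d) ℂ => ∀ β ∈ p.support, 0 ≤ ∑ j, ω j * (β j : ℤ)) ?_ ?_
    fun i _ => hq i
  · intro p p' hp hp' β hβ
    obtain ⟨b, hb, b', hb', rfl⟩ := Finset.mem_add.1 (support_mul p p' hβ)
    have h1 := add_nonneg (hp b hb) (hp' b' hb')
    rw [← Finset.sum_add_distrib] at h1
    refine le_trans h1 (le_of_eq ?_)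
    exact Finset.sum_congr rfl fun j _ => by simp; ring
  · intro β hβ
    rw [mem_support_iff, coeff_one] at hβ
    have h1 : (0 : Fin d →₀ ℕ) = β := by
      by_contra h
      exact hβ (if_neg h)
    subst h1
    simp

/-- A polynomial without terms of negative weight has no negative value. -/
theorem nonneg_aeval {L : Type} [Field L] [Algebra ℂ L] {y : Fin d → L} (H : IsRat y)
    {w : AddValuation L (WithTop ℤ)} (hw : Q.IsDivisorial d w) {c : ℕ} (hc : 0 < c)
    {ω : Fin d → ℤ} (hy : ∀ j, (c : ℤ) * ov w (y j) = ω j) {p : MvPolynomial (Fin d) ℂ}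
    (hp0 : p ≠ 0) (hp : ∀ β ∈ p.support, 0 ≤ ∑ j, ω j * (β j : ℤ)) : 0 ≤ ov w (aeval y p) := by
  classical
  have hc0 : (0 : ℤ) < c := by exact_mod_cast hc
  have hy0 : ∀ j, y j ≠ 0 := fun j => H.ind.ne_zero j
  rw [← nonneg_iff w (q_ne H hp0), aeval_def, eval₂_eq]
  refine AddValuation.map_le_sum w fun β hβ => ?_
  have h0 : coeff β p ≠ 0 := mem_support_iff.1 hβ
  rw [AddValuation.map_mul, hw.const _ h0, zero_add]
  have hm0 : ∏ j ∈ β.support, y j ^ β j ≠ 0 :=
    Finset.prod_ne_zero_iff.2 fun j _ => pow_ne_zero _ (hy0 j)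
  rw [nonneg_iff w hm0]
  have h1 : ∏ j ∈ β.support, y j ^ β j = ∏ j, y j ^ (β j : ℤ) := by
    rw [Finset.prod_subset (Finset.subset_univ β.support)]
    · exact Finset.prod_congr rfl fun j _ => by rw [zpow_natCast]
    · intro j _ hj
      rw [Finsupp.notMem_support_iff.1 hj, pow_zero]
  rw [h1, ov_prod _ _ fun j _ => zpow_ne_zero _ (hy0 j),
    Finset.sum_congr rfl fun j _ => ov_zpow w (hy0 j) (β j : ℤ)]
  have h4 : (c : ℤ) * ∑ j, (β j : ℤ) * ov w (y j) = ∑ j, ω j * (β j : ℤ) := by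
    rw [Finset.mul_sum]
    exact Finset.sum_congr rfl fun j _ => by rw [← hy j]; ring
  have h5 := hp β hβ
  rw [← h4] at h5
  exact nonneg_of_mul_nonneg_right h5 hc0

end Eqn

/-- Divisorial valuations with given weights in a chart whose units are the polynomials `q i`. -/
theorem poly_exist {d : ℕ} (hd : 0 < d) {L : Type} [Field L] [Algebra ℂ L] {y : Fin d → L}
    (hrat : IsRat y) {U : Type} [Fintype U] (q : U → MvPolynomial (Fin d) ℂ)
    (hq0 : ∀ i, coeff 0 (q i) ≠ 0) (ω : Fin d → ℤ) (hω0 : ω ≠ 0)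
    (hq : ∀ i, ∀ β ∈ (q i).support, 0 ≤ ∑ j, ω j * (β j : ℤ)) :
    ∃ w : AddValuation L (WithTop ℤ), Q.IsDivisorial d w ∧ ∃ c : ℕ, 0 < c ∧
      (∀ j, (c : ℤ) * ov w (y j) = ω j) ∧ (∀ i, ov w (aeval y (q i)) = 0) ∧
      ∀ (D' : Fin d → Derivation ℂ L L) (h : L), h * Q.jac D' y = 1 →
        ∀ m' : ℤ, Q.FormOrder w D' m' → (c : ℤ) * (1 + m' - ov w h) = ∑ j, ω j := by
  classical
  obtain ⟨d, rfl⟩ : ∃ e, d = e + 1 := ⟨d - 1, by omega⟩
  set p : MvPolynomial (Fin (d + 1)) ℂ := ∏ i, q i with hp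
  have hpc : coeff 0 p ≠ 0 := by
    rw [← constantCoeff_eq, hp, map_prod]
    exact Finset.prod_ne_zero_iff.2 fun i _ => by rw [constantCoeff_eq]; exact hq0 i
  have hpne : p ≠ 0 := by
    intro h
    rw [h, coeff_zero] at hpc
    exact hpc rfl
  have hqne : ∀ i, q i ≠ 0 := by
    intro i h
    have h1 := hq0 i
    rw [h, coeff_zero] at h1
    exact h1 rfl
  have H := poly_hyp hrat hpne
  set a : Fin (d + 1 + 1) → ℤ := Fin.cons 0 ω with ha
  have ha0 : a ≠ 0 := by
    intro h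
    apply hω0
    funext l
    have h2 := congrFun h l.succ
    simp only [ha, Fin.cons_succ, Pi.zero_apply] at h2
    exact h2
  have hmin : IsMinZ (pF p) a 0 := isMin_pF ω (wt_prod hq)
  have hreg : RegZ (pF p) a := reg_pF a hmin
  have hα : (0 : Fin (d + 1 + 1) →₀ ℕ) ∈ (pF p).support := by
    rw [mem_support_iff, coeff_zero_pF]; norm_num
  have hβ : (Finsupp.single 0 1 : Fin (d + 1 + 1) →₀ ℕ) ∈ (pF p).support := by
    rw [mem_support_iff, coeff_one_pF]
    exact hpc
  have hαw : wtZ a 0 = 0 := by simp [wtZ]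
  have hβw : wtZ a (Finsupp.single 0 1) = 0 := by
    unfold wtZ
    rw [Fin.sum_univ_succ, ha, Fin.cons_zero, zero_mul, zero_add]
    refine Finset.sum_eq_zero fun j _ => ?_
    rw [Finsupp.single_eq_of_ne (Fin.succ_ne_zero j)]
    simp
  have hαβ : (0 : Fin (d + 1 + 1) →₀ ℕ) ≠ Finsupp.single 0 1 := by
    intro h
    have h1 := DFunLike.congr_fun h 0
    simp at h1
  have HD : DiagData L (pY y p) (pF p) (⊥ : Subgroup (L ≃ₐ[ℂ] L)) :=
    { gen := H.gen
      ker := H.ker
      f0 := H.f0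
      x0 := H.x0
      fin := inferInstance
      diag := by
        intro τ hτ j
        rw [Subgroup.mem_bot] at hτ
        exact ⟨1, by rw [hτ]; simp⟩
      fix := by
        intro z
        refine ⟨fun _ τ hτ => ?_, fun _ => ⟨z, rfl⟩⟩
        rw [Subgroup.mem_bot] at hτ
        rw [hτ]; rfl }
  obtain ⟨c₁, e₀, v', w, hc₁, he₀, hv', hw, hvw, hx, hord⟩ :=
    psi_valZ HD a hreg ha0 1 one_pos (fun _ _ => by simp) hmin hα hβ hαw hβw hαβ
  have he1 : e₀ = 1 := by
    obtain ⟨t, ht⟩ := hw.normalized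
    have ht0 : t ≠ 0 := ne_zero_of_eq w (n := 1) (by simpa using ht)
    have h1 := hvw t
    have h2 : (algebraMap L L t) = t := rfl
    rw [h2, ht, ← coe_ov v' ht0, ← WithTop.coe_nsmul, nsmul_eq_mul] at h1
    have h3 : (1 : ℤ) = e₀ * ov v' t := by exact_mod_cast h1
    have h4 : (e₀ : ℤ) ∣ 1 := ⟨_, h3⟩
    have h5 := Int.eq_one_of_dvd_one (by positivity) h4
    exact_mod_cast h5
  subst he1
  have hxA : ∀ j, (c₁ : ℤ) * ov w (pY y p j) = a j := by
    intro j
    have h1 := hx j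
    push_cast at h1
    rw [one_mul, one_mul] at h1
    exact h1
  have hwz : ∀ l, (c₁ : ℤ) * ov w (y l) = ω l := fun l => hxA l.succ
  have hwp : ov w (aeval y p) = 0 := by
    have h1 := hxA 0
    have h2 : pY y p 0 = (aeval y p)⁻¹ := rfl
    have h3 : a 0 = 0 := rfl
    rw [h2, h3, ov_inv] at h1
    rcases mul_eq_zero.1 h1 with h4 | h4
    · omega
    · omega
  have hl : ∀ i, ov w (aeval y (q i)) = 0 := by
    rw [hp, map_prod, ov_prod _ _ fun i _ => q_ne hrat (hqne i)] at hwp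
    intro i
    exact (Finset.sum_eq_zero_iff_of_nonneg fun i _ =>
      nonneg_aeval hrat hw hc₁ hwz (hqne i) (hq i)).1 hwp i (Finset.mem_univ i)
  refine ⟨w, hw, c₁, hc₁, hwz, hl, ?_⟩
  intro D' h hh m' hm'
  have hR := poly_res hrat hpne hh
  have h1 := hord D' _ hR m' hm'
  have hh0 : h ≠ 0 := by
    rintro rfl
    rw [zero_mul] at hh
    exact zero_ne_one hh
  have h2 : ov w (aeval y p * h) = ov w h := by
    rw [ov_mul w (q_ne hrat hpne) hh0, hwp, zero_add]
  rw [h2] at h1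
  have h3 : ∑ j, a j = ∑ l, ω l := by
    rw [Fin.sum_univ_succ]
    simp [ha]
  rw [h3] at h1
  push_cast at h1
  linarith

end Vale.Agent.P283.A647.H279
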